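import Vale.Agent.P275ST.Geo
import Vale.Agent.P275S.Defs
import Vale.Agent.P281Z.Rs.Defs

/-!
# P275, statement: cohomology, the perverse filtration, the weight filtration, `P = W`
-/

open scoped Manifold ContDiff Topology
open Filter CategoryTheory CategoryTheory.Pretriangulated Limits
open P275S (Sh Der sec app cst pushC Stk I cls)
open Vale.Agent.P281Z (Mf off)
open Vale.Agent.P277Z (Hol)
open Vale.Agent.P277Z.Slc (LEq Snc Ind)

noncomputable section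

namespace Vale.Agent.P275ST

/-- The cocycles of degree `m` in `Γ(X, I)`, where `ℚ_X → I` is an injective resolution; their
classes form `H^m(X, ℚ)`. -/
abbrev Cocy (X : TopCat.{0}) (m : ℤ) : Type :=
  {c : sec ((I ℚ X).X m) ⊤ // app ((I ℚ X).d m (m + 1)) ⊤ c = 0}

variable {X Y : TopCat.{0}}

/-- `Rf_* ℚ_X` -/
abbrev RQ (f : X ⟶ Y) : Der ℚ Y := DerivedCategory.Q.obj ((pushC ℚ f).obj (I ℚ X))

/-- the sheaf `G` in degree `m`, that is `G[-m]` -/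
abbrev sg (G : Sh ℚ Y) (m : ℤ) : Der ℚ Y :=
  DerivedCategory.Q.obj ((CochainComplex.singleFunctor (Sh ℚ Y) m).obj G)

/-- the class of a cocycle in `H^m(Y, Rf_* ℚ_X) = Hom(ℚ_Y[-m], Rf_* ℚ_X)` -/
def clsf (f : X ⟶ Y) {m : ℤ} (c : Cocy X m) : sg (cst ℚ Y) m ⟶ RQ f :=
  cls (F := (pushC ℚ f).obj (I ℚ X)) (c.1 : sec ((I ℚ X).X m) ⊤) c.2

/-- the stalks of `G` vanish outside `Z` -/
def SuppIn (G : Sh ℚ Y) (Z : Set Y) : Prop := ∀ y ∉ Z, IsZero ((Stk ℚ y).obj G)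

section perverse

variable {V : Type} [AddCommGroup V] [Module ℂ V] [TopologicalSpace V]

/-- Support condition, `A ∈ {}^pD^{≤ c}` : `A` is bounded below and `dim supp H^i(A) ≤ c - i`. -/
def PLE (c : ℤ) (A : Der ℚ (TopCat.of V)) : Prop :=
  (∃ b, A.IsGE b) ∧ ∀ i : ℤ, ∃ Z : Set V, ZarLE Z (c - i) ∧
    SuppIn ((DerivedCategory.homologyFunctor _ i).obj A) Z

/-- Cosupport condition, `B ∈ {}^pD^{> c}` : `H^i(ι_Z^! B) = 0` for `i ≤ c - dim Z`, for every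
Zariski closed `Z`; that is, `Hom(G[-i], B) = 0` for all sheaves `G` with support in `Z`. -/
def PGT (c : ℤ) (B : Der ℚ (TopCat.of V)) : Prop :=
  ∀ (i : ℤ) (Z : Set V), ZarLE Z (c - i) → ∀ G : Sh ℚ (TopCat.of V), SuppIn G Z →
    ∀ φ : sg G i ⟶ B, φ = 0

/-- `u : A → K` is the perverse truncation `{}^pτ_{≤ c} K → K` -/
def IsPervTrunc (c : ℤ) {A K : Der ℚ (TopCat.of V)} (u : A ⟶ K) : Prop :=
  ∃ (B : Der ℚ (TopCat.of V)) (v : K ⟶ B) (w : B ⟶ A⟦(1 : ℤ)⟧),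
    Triangle.mk u v w ∈ distTriang (Der ℚ (TopCat.of V)) ∧ PLE c A ∧ PGT c B

end perverse

/-- the class of `c` is in the image of `H^m(Y, A) → H^m(Y, Rf_* ℚ) = H^m(X, ℚ)` -/
def InIm (f : X ⟶ Y) {A : Der ℚ Y} (u : A ⟶ RQ f) {m : ℤ} (c : Cocy X m) : Prop :=
  ∃ φ : sg (cst ℚ Y) m ⟶ A, φ ≫ u = clsf f c

/-- The class of `c` is in Deligne's `W_w H^m(X, ℚ)`, the image of `H^m(Y, τ_{≤ w - m} Rj_* ℚ)`,
for a compactification `j : X → Y` by a divisor with simple normal crossings. -/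
def InW (j : X ⟶ Y) (w : ℤ) {m : ℤ} (c : Cocy X m) : Prop :=
  InIm j ((DerivedCategory.TStructure.t.truncLEι (w - m)).app (RQ j)) c

/-- `R = (n² - 1)(g - 1)` -/
def dimR (g n : ℕ) : ℕ := (n ^ 2 - 1) * (g - 1)

/-- A smooth projective compactification `Y` of the variety `X^B` by a divisor `⋃ G l` with simple
normal crossings: `j` is a homeomorphism onto the complement, the regular functions on `X^B` are
meromorphic on `Y` with poles along the divisor only, and they give local coordinates on the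
complement. -/
structure Cpt (g n : ℕ) (d : ℤ) where
  Y : Mf (2 * dimR g n)
  prj : Y.Prj
  r : ℕ
  G : Fin r → Set Y.X
  snc : Snc (2 * dimR g n) G
  j : XB g n d → Y.X
  emb : Topology.IsOpenEmbedding j
  rng : Set.range j = off G
  dense : Dense (off G)
  mer : ∀ t : XB g n d → ℂ, IsReg t → ∀ (y : Y.X) (ζ : Fin r → Y.X → ℂ),
    (∀ l, LEq (2 * dimR g n) (G l) y (ζ l)) → ∃ (k : ℕ) (u : Y.X → ℂ), Hol (2 * dimR g n) u y ∧
      ∀ᶠ y' in 𝓝 y, ∀ x, j x = y' → u y' = t x * (∏ l, ζ l y') ^ k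
  crd : ∀ x, ∃ (t : Fin (2 * dimR g n) → XB g n d → ℂ) (u : Fin (2 * dimR g n) → Y.X → ℂ),
    (∀ i, IsReg (t i) ∧ ∀ x', u i (j x') = t i x') ∧ Ind (2 * dimR g n) u (j x)

/-- the open embedding as a morphism of spaces -/
def Cpt.hom {g n : ℕ} {d : ℤ} (K : Cpt g n d) : TopCat.of (XB g n d) ⟶ TopCat.of K.Y.X :=
  TopCat.ofHom ⟨K.j, K.emb.continuous⟩

/-- **`P = W` for `SL_n`.** -/
def PW : Prop :=
  ∀ (C : Type) [TopologicalSpace C] [T2Space C] [CompactSpace C] [ConnectedSpace C]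
    [ChartedSpace ℂ C] [IsManifold 𝓘(ℂ) ω C] (p : C) (x₀ : Pc p),
    (∃ g, Nonempty (Marking g p x₀)) ∧
    ∀ (g n : ℕ) (D : C →₀ ℤ) (M : Marking g p x₀), 2 ≤ g → 2 ≤ n → IsCoprime (n : ℤ) (deg D) →
      (∃ ℓ, IsTriv D p ℓ) ∧ Nonempty (Cpt g n (deg D)) ∧
      ∀ ℓ, IsTriv D p ℓ →
        (∀ E : Higgs C n D, ∃ ρ, NAH M ℓ E ρ) ∧
        (∀ ρ, ∃ E : Higgs C n D, NAH M ℓ E ρ) ∧
        (∀ (E E' : Higgs C n D) ρ ρ', NAH M ℓ E ρ → NAH M ℓ E' ρ' → (E.Iso E' ↔ ρ.pt = ρ'.pt)) ∧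
        ∃ h : C(XB g n (deg D), Base C n),
          (∀ (E : Higgs C n D) ρ, NAH M ℓ E ρ → E.Hit (h ρ.pt)) ∧
          ∀ k : ℕ,
            (∃ (A : Der ℚ (TopCat.of (Base C n))) (u : A ⟶ RQ (TopCat.ofHom h)),
              IsPervTrunc (k + dimR g n) u) ∧
            ∀ (A : Der ℚ (TopCat.of (Base C n))) (u : A ⟶ RQ (TopCat.ofHom h)),
              IsPervTrunc (k + dimR g n) u → ∀ (K : Cpt g n (deg D)) (m : ℕ)
                (c : Cocy (TopCat.of (XB g n (deg D))) m),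
                (InIm (TopCat.ofHom h) u c ↔ InW K.hom (2 * k) c) ∧
                (InW K.hom (2 * k) c ↔ InW K.hom (2 * k + 1) c)

end Vale.Agent.P275ST
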