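import Mathlib

/-!
# P275, statement, geometric half: Higgs bundles, Hitchin base, character variety, nonabelian Hodge

`C` is a compact connected Riemann surface, `K` its field of meromorphic functions. An algebraic
vector bundle of rank `n` on `C` is a locally free subsheaf of the constant sheaf `K^n`
(every algebraic vector bundle has a meromorphic frame), so it is given by the lattices
`E_x = g_x O_x^n`, with `g_x = 1` for all but finitely many `x` (Weil). Sections, metrics, Higgs
fields and frames are written in this meromorphic frame; their values at finitely many points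
play no role.
-/

open scoped Manifold ContDiff Topology commutatorElement Real ComplexOrder
open Filter Matrix

noncomputable section

namespace Vale.Agent.P275ST

/-- complex matrices -/
abbrev Mx (m n : ℕ) : Type := Matrix (Fin m) (Fin n) ℂ

/-- `∂F/∂z` of a matrix valued function -/
def dz {m n : ℕ} (F : ℂ → Mx m n) (z : ℂ) : Mx m n := Matrix.of fun i j =>
  (fderiv ℝ (fun w => F w i j) z 1 - Complex.I * fderiv ℝ (fun w => F w i j) z Complex.I) / 2

/-- `∂F/∂z̄` of a matrix valued function -/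
def dzb {m n : ℕ} (F : ℂ → Mx m n) (z : ℂ) : Mx m n := Matrix.of fun i j =>
  (fderiv ℝ (fun w => F w i j) z 1 + Complex.I * fderiv ℝ (fun w => F w i j) z Complex.I) / 2

section curve

variable {C : Type} [TopologicalSpace C] [ChartedSpace ℂ C]

/-- the coordinate of `x` in the chart at `x` -/
def ctr (x : C) : ℂ := chartAt ℂ x x

/-- a function read in the chart at `x` -/
def loc {V : Type} (x : C) (f : C → V) (z : ℂ) : V := f ((chartAt ℂ x).symm z)

/-- A `k`-differential is given by its coefficient `a y` at each point `y` in the chart at `y`.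
Its coefficient in the chart at `x` is `jac x z ^ k * loc x a z`, where `jac x z` is the
derivative at `z` of the change of coordinates from the chart at `x` to the chart at the point
`y` with coordinate `z`. -/
def jac (x : C) (z : ℂ) : ℂ :=
  deriv (fun w => chartAt ℂ ((chartAt ℂ x).symm z) ((chartAt ℂ x).symm w)) z

/-- `f` is meromorphic at `x` -/
def MerAt (x : C) (f : C → ℂ) : Prop := MeromorphicAt (loc x f) (ctr x)

/-- the order of `f` at `x` -/
def ord (x : C) (f : C → ℂ) : WithTop ℤ := meromorphicOrderAt (loc x f) (ctr x)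

/-- a matrix of meromorphic functions on `C` -/
def MerMx {m n : ℕ} (s : C → Mx m n) : Prop := ∀ x i j, MerAt x fun y => s y i j

/-- `F`, given near `z₀` but not at `z₀`, extends to the holomorphic `G` -/
def HolExt {m n : ℕ} (F G : ℂ → Mx m n) (z₀ : ℂ) : Prop :=
  (∀ i j, AnalyticAt ℂ (fun z => G z i j) z₀) ∧ F =ᶠ[𝓝[≠] z₀] G

/-- `F`, given near `z₀` but not at `z₀`, extends to the smooth `G` -/
def SmExt {m n : ℕ} (F G : ℂ → Mx m n) (z₀ : ℂ) : Prop :=
  (∀ i j, ContDiffAt ℝ ∞ (fun z => G z i j) z₀) ∧ F =ᶠ[𝓝[≠] z₀] G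

variable (C) in
/-- `H^0(C, K_C^k)`, the holomorphic `k`-differentials -/
def H0 (k : ℕ) : Submodule ℂ (C → ℂ) where
  carrier := {a | ∀ x, AnalyticAt ℂ (fun z => jac x z ^ k * loc x a z) (ctr x)}
  add_mem' := fun {a b} ha hb x => by
    have := (ha x).add (hb x)
    refine this.congr (Eventually.of_forall fun z => ?_)
    simp [loc, mul_add]
  zero_mem' := fun x => by simpa [loc] using analyticAt_const
  smul_mem' := fun c a ha x => by
    have := (analyticAt_const (v := c)).mul (ha x)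
    refine this.congr (Eventually.of_forall fun z => ?_)
    simp [loc, mul_left_comm]

variable (C) in
/-- the Hitchin base `⊕_{i=2}^n H^0(C, K_C^i)` (a finite dimensional vector space, with its
topology) -/
abbrev Base (n : ℕ) : Type := ∀ i : Fin (n - 1), H0 C (i + 2)

variable (C) in
/-- a vector bundle of rank `n`: the columns of `g x` are a local frame at `x` -/
structure VB (n : ℕ) where
  g : C → C → Mx n n
  mer : ∀ x i j, MerAt x fun y => g x y i j
  nz : ∀ x, ord x (fun y => (g x y).det) ≠ ⊤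
  fin : {x | g x ≠ fun _ => 1}.Finite

variable {n : ℕ}

/-- the order at `x` of the section `s_1 ∧ ... ∧ s_r` of `Λ^r E`, for meromorphic sections `s_i`
(the columns of `s`): the least order of a maximal minor of `s` in the local frame -/
def VB.mord (E : VB C n) {r : ℕ} (s : C → Mx n r) (x : C) : WithTop ℤ :=
  Finset.univ.inf fun I : Fin r → Fin n =>
    ord x fun y => (((E.g x y)⁻¹ * s y).submatrix I id).det

/-- the degree of the subbundle of `E` which is generically spanned by the columns of `s` -/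
def VB.degS (E : VB C n) {r : ℕ} (s : C → Mx n r) : ℤ := ∑ᶠ x, (E.mord s x).untop₀

/-- multiplication by the meromorphic function `f` is an isomorphism `det E ≅ L = O(D)` -/
def VB.DetIso (E : VB C n) (D : C →₀ ℤ) (f : C → ℂ) : Prop :=
  ∀ x, MerAt x f ∧ ord x (fun y => f y * (E.g x y).det) = ((-D x : ℤ) : WithTop ℤ)

/-- the degree of a divisor -/
def deg (D : C →₀ ℤ) : ℤ := D.sum fun _ k => k

variable (C) in
/-- a stable Higgs bundle `θ : E → E ⊗ K_C` of rank `n` with `det E ≅ O(D)` and `tr θ = 0`;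
the degree is `d = deg D` -/
structure Higgs (n : ℕ) (D : C →₀ ℤ) extends VB C n where
  θ : C → Mx n n
  hol : ∀ x, ∃ G, HolExt
    (fun z => (loc x (g x) z)⁻¹ * (jac x z • loc x θ z) * loc x (g x) z) G (ctr x)
  tr : ∀ x, ∀ᶠ y in 𝓝[≠] x, (θ y).trace = 0
  det : ∃ f, toVB.DetIso D f
  stable : ∀ (r : ℕ) (s : C → Mx n r), 0 < r → r < n → MerMx s → (∀ x, toVB.mord s x ≠ ⊤) →
    (∃ m : C → Mx r r, ∀ x, ∀ᶠ y in 𝓝[≠] x, θ y * s y = s y * m y) →
    (n : ℤ) * toVB.degS s < r * deg D

variable {D : C →₀ ℤ}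

/-- isomorphic Higgs bundles -/
def Higgs.Iso (E E' : Higgs C n D) : Prop := ∃ φ : C → Mx n n, ∀ x,
  (∃ G, HolExt (fun z => (loc x (E'.g x) z)⁻¹ * loc x φ z * loc x (E.g x) z) G (ctr x) ∧
    (G (ctr x)).det ≠ 0) ∧ ∀ᶠ y in 𝓝[≠] x, φ y * E.θ y = E'.θ y * φ y

/-- `a` is the image of `E` under the Hitchin map: the coefficients of the characteristic
polynomial of `θ` -/
def Higgs.Hit (E : Higgs C n D) (a : Base C n) : Prop :=
  ∀ x, ∀ᶠ y in 𝓝[≠] x, ∀ i, (a i : C → ℂ) y = (E.θ y).charpoly.coeff (n - (i + 2))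

/-- `H` is a smooth Hermitian metric `h(u, v) = uᴴ H v` on `E` -/
def VB.IsMetric (E : VB C n) (H : C → Mx n n) : Prop := ∀ x, ∃ G,
  SmExt (fun z => (loc x (E.g x) z)ᴴ * loc x H z * loc x (E.g x) z) G (ctr x) ∧ (G (ctr x)).PosDef

/-- `F` is, near `x`, a smooth frame of `E` which is parallel up to a scalar form for the
connection `∇ = D_h + θ + θ^*` (`D_h` the Chern connection, `θ^*` the adjoint for `h`). Such
frames exist near all points if and only if the trace free part of `F_h + [θ, θ^*]` vanishes,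
which is the equation of Hitchin. -/
def Higgs.IsFlat (E : Higgs C n D) (H F : C → Mx n n) (x : C) : Prop :=
  (∃ G, SmExt (fun z => (loc x (E.g x) z)⁻¹ * loc x F z) G (ctr x) ∧ (G (ctr x)).det ≠ 0) ∧
  ∃ a b : ℂ → ℂ, ∀ᶠ z in 𝓝[≠] (ctr x),
    dz (loc x F) z + ((loc x H z)⁻¹ * dz (loc x H) z + jac x z • loc x E.θ z) * loc x F z =
      a z • loc x F z ∧
    dzb (loc x F) z + (loc x H z)⁻¹ * (jac x z • loc x E.θ z)ᴴ * loc x H z * loc x F z =
      b z • loc x F z

/-- `ℓ` is a smooth nowhere vanishing section of `L = O(D)` over `C ∖ {p}` -/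
def IsTriv (D : C →₀ ℤ) (p : C) (ℓ : C → ℂ) : Prop := ∀ x ≠ p, ∃ u : ℂ → ℂ,
  ContDiffAt ℝ ∞ u (ctr x) ∧ u (ctr x) ≠ 0 ∧
    ∀ᶠ z in 𝓝[≠] (ctr x), (z - ctr x) ^ D x * loc x ℓ z = u z

/-- the punctured curve -/
abbrev Pc (p : C) : Type := ↥({p}ᶜ : Set C)

/-- `γ` is the class of a loop which goes to a small coordinate circle around `p`, once around it
in the positive direction, and back -/
def IsMeridian (p : C) (x₀ : Pc p) (γ : FundamentalGroup (Pc p) x₀) : Prop :=
  ∃ (ε : ℝ) (y : Pc p) (σ : Path x₀ y) (c : Path y y), 0 < ε ∧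
    Metric.closedBall (ctr p) ε ⊆ (chartAt ℂ p).target ∧
    (∀ t, (c t : C) = (chartAt ℂ p).symm (circleMap (ctr p) ε (2 * π * t))) ∧
    γ = FundamentalGroup.fromPath (Path.Homotopic.Quotient.mk (σ.trans (c.trans σ.symm)))

/-- A marking of genus `g`: free generators `a_j, b_j` of `π_1(C ∖ {p}, x₀)` such that
`∏ [a_j, b_j]` is a positive loop around `p`. It exists exactly for the genus `g` of `C`. -/
structure Marking (g : ℕ) (p : C) (x₀ : Pc p) where
  e : FreeGroup (Fin g × Bool) ≃* FundamentalGroup (Pc p) x₀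
  rel : IsMeridian p x₀
    (e (List.ofFn fun j => ⁅FreeGroup.of (j, false), FreeGroup.of (j, true)⁆).prod)

end curve

/-! ### The twisted character variety -/

/-- `ζ = e^{2 π i d / n}` -/
def zeta (n : ℕ) (d : ℤ) : ℂ := Complex.exp (2 * π * Complex.I * d / n)

/-- the tuples `(A_j, B_j)` in `SL_n(ℂ)` with `∏ [A_j, B_j] = ζ`; `A_j = ρ (j, false)`,
`B_j = ρ (j, true)` -/
def Rep (g n : ℕ) (d : ℤ) : Type :=
  {ρ : Fin g × Bool → SpecialLinearGroup (Fin n) ℂ //
    ((List.ofFn fun j => ⁅ρ (j, false), ρ (j, true)⁆).prod : SpecialLinearGroup (Fin n) ℂ).1 =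
      zeta n d • (1 : Mx n n)}

instance (g n : ℕ) (d : ℤ) : TopologicalSpace (Rep g n d) :=
  inferInstanceAs (TopologicalSpace (Subtype _))

/-- simultaneous conjugation -/
def Rep.Conj {g n : ℕ} {d : ℤ} (ρ ρ' : Rep g n d) : Prop :=
  ∃ P : SpecialLinearGroup (Fin n) ℂ, ∀ s, ρ'.1 s = P * ρ.1 s * P⁻¹

/-- The twisted character variety `X^B`. For `d` coprime to `n` all orbits are closed, so the
quotient is the space of orbits. -/
def XB (g n : ℕ) (d : ℤ) : Type := Quot (Rep.Conj (g := g) (n := n) (d := d))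

instance (g n : ℕ) (d : ℤ) : TopologicalSpace (XB g n d) :=
  inferInstanceAs (TopologicalSpace (Quot _))

/-- the point of `X^B` given by a tuple -/
def Rep.pt {g n : ℕ} {d : ℤ} (ρ : Rep g n d) : XB g n d := Quot.mk _ ρ

/-- the regular functions on `X^B`: the invariant polynomials in the matrix entries -/
def IsReg {g n : ℕ} {d : ℤ} (t : XB g n d → ℂ) : Prop :=
  ∃ P : MvPolynomial ((Fin g × Bool) × Fin n × Fin n) ℂ,
    ∀ ρ : Rep g n d, t ρ.pt = MvPolynomial.eval (fun q => (ρ.1 q.1).1 q.2.1 q.2.2) P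

section nah

variable {C : Type} [TopologicalSpace C] [ChartedSpace ℂ C] {g n : ℕ} {D : C →₀ ℤ} {p : C}
  {x₀ : Pc p}

/-- **The nonabelian Hodge correspondence.** `E` has a metric `H` and a multivalued frame `F` on
`C ∖ {p}` (a germ `F x γ` at `x` for each class `γ` of paths from `x₀` to `x`, compatible with
continuation along paths), parallel up to scalars for `D_h + θ + θ^*` and with determinant `ℓ`,
whose monodromy along `a_j, b_j` is `A_j, B_j`. So `H` solves the equation of Hitchin and `ρ` is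
the monodromy of the flat `SL_n` connection on `E ⊗ L^{-1/n}` over `C ∖ {p}`, where the root of
`L` is fixed by the trivialisation `ℓ`. -/
def NAH (M : Marking g p x₀) (ℓ : C → ℂ) (E : Higgs C n D) (ρ : Rep g n (deg D)) : Prop :=
  ∃ (H : C → Mx n n) (f : C → ℂ)
    (F : ∀ x : Pc p, Path.Homotopic.Quotient x₀ x → C → Mx n n),
    E.IsMetric H ∧ E.DetIso D f ∧
    (∀ x γ, E.IsFlat H (F x γ) x ∧ ∀ᶠ y in 𝓝[≠] (x : C), f y * (F x γ y).det = ℓ y) ∧
    (∀ x γ, ∃ V ∈ 𝓝 x, ∀ (y : Pc p) (δ : Path x y), (∀ t, δ t ∈ V) →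
      F y (γ.trans (Path.Homotopic.Quotient.mk δ)) =ᶠ[𝓝[≠] (y : C)] F x γ) ∧
    ∀ s, ∀ᶠ y in 𝓝[≠] (x₀ : C), F x₀ (M.e (FreeGroup.of s)).toPath y =
      F x₀ (Path.Homotopic.Quotient.refl x₀) y * (ρ.1 s).1

end nah

/-! ### Zariski closed sets in a vector space -/

section zar

variable {V : Type} [AddCommGroup V] [Module ℂ V]

/-- the polynomial functions on a subset `Z` of a finite dimensional vector space -/
def Pol (Z : Set V) : Subalgebra ℂ (Z → ℂ) :=
  Algebra.adjoin ℂ (Set.range fun φ : V →ₗ[ℂ] ℂ => fun z : Z => φ z)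

/-- `Z` is Zariski closed -/
def IsZar (Z : Set V) : Prop :=
  ∃ S : Set (Pol (Set.univ : Set V)), ∀ v, v ∈ Z ↔ ∀ f ∈ S, f.1 ⟨v, trivial⟩ = 0

/-- `Z` is Zariski closed of dimension at most `e` (empty if `e < 0`) -/
def ZarLE (Z : Set V) (e : ℤ) : Prop :=
  IsZar Z ∧ ringKrullDim (Pol Z) < (((e + 1).toNat : ℕ∞) : WithBot ℕ∞)

end zar

end Vale.Agent.P275ST
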